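import Mathlib

/-!
# P213, transfer: pushouts of coproducts are transfinite compositions of single pushouts

Cells are attached one at a time along a well order of their index set.
-/

universe w v u

namespace Vale.Agent.P213.Transfer

open CategoryTheory Limits MorphismProperty

noncomputable section

variable {C : Type u} [Category.{v} C] {ι : Type w} {A B : ι → C} (f : ∀ i, A i ⟶ B i) {X : C}
  (a : ∀ i, A i ⟶ X)

/-- An object obtained from `X` by attaching the cells with index in `S`. -/
structure Glue (S : Set ι) where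
  pt : C
  h : X ⟶ pt
  b : ∀ i, i ∈ S → (B i ⟶ pt)
  w : ∀ i hi, f i ≫ b i hi = a i ≫ h
  desc : ∀ {Z : C} (x : X ⟶ Z) (y : ∀ i, i ∈ S → (B i ⟶ Z)),
    (∀ i hi, f i ≫ y i hi = a i ≫ x) → (pt ⟶ Z)
  h_desc : ∀ {Z : C} (x : X ⟶ Z) (y : ∀ i, i ∈ S → (B i ⟶ Z))
    (e : ∀ i hi, f i ≫ y i hi = a i ≫ x), h ≫ desc x y e = x
  b_desc : ∀ {Z : C} (x : X ⟶ Z) (y : ∀ i, i ∈ S → (B i ⟶ Z))
    (e : ∀ i hi, f i ≫ y i hi = a i ≫ x) (i : ι) (hi : i ∈ S), b i hi ≫ desc x y e = y i hi
  hom_ext : ∀ {Z : C} (p q : pt ⟶ Z), h ≫ p = h ≫ q →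
    (∀ i hi, b i hi ≫ p = b i hi ≫ q) → p = q

variable {f a}

attribute [reassoc (attr := simp)] Glue.h_desc Glue.b_desc

/-- The inclusion for two sets of cells. -/
def Glue.map {S T : Set ι} (G : Glue f a S) (G' : Glue f a T) (h : S ⊆ T) : G.pt ⟶ G'.pt :=
  G.desc G'.h (fun i hi => G'.b i (h hi)) fun i hi => G'.w i (h hi)

@[reassoc (attr := simp)]
theorem Glue.h_map {S T : Set ι} (G : Glue f a S) (G' : Glue f a T) (h : S ⊆ T) :
    G.h ≫ G.map G' h = G'.h :=
  G.h_desc _ _ _

@[reassoc (attr := simp)]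
theorem Glue.b_map {S T : Set ι} (G : Glue f a S) (G' : Glue f a T) (h : S ⊆ T) (i : ι)
    (hi : i ∈ S) : G.b i hi ≫ G.map G' h = G'.b i (h hi) :=
  G.b_desc _ _ _ i hi

variable (f a) in
theorem nonempty_glue [HasCoproducts.{w} C] [HasPushouts C] (S : Set ι) :
    Nonempty (Glue f a S) :=
  ⟨{  pt := pushout (Limits.Sigma.desc fun i : S => a i.1) (Limits.Sigma.map fun i : S => f i.1)
      h := pushout.inl _ _
      b := fun i hi => Sigma.ι (fun i : S => B i.1) ⟨i, hi⟩ ≫ pushout.inr _ _
      w := fun i hi => by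
        have := Sigma.ι (fun i : S => A i.1) ⟨i, hi⟩ ≫= pushout.condition
          (f := Sigma.desc fun i : S => a i.1) (g := Limits.Sigma.map fun i : S => f i.1)
        simpa using this.symm
      desc := fun x y e => pushout.desc x (Sigma.desc fun i : S => y i.1 i.2)
        (by ext i; simp [e])
      h_desc := fun x y e => pushout.inl_desc _ _ _
      b_desc := fun x y e i hi => by rw [Category.assoc, pushout.inr_desc, Limits.Sigma.ι_desc]
      hom_ext := fun p q hp hq => by
        refine pushout.hom_ext hp ?_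
        ext i
        simpa using hq i.1 i.2 }⟩

/-- Attaching one more cell is a pushout. -/
theorem isPushout_insert {S T : Set ι} (G : Glue f a S) (G' : Glue f a T) (h : S ⊆ T) (i : ι)
    (hiT : i ∈ T) (hiS : i ∉ S) (hT : ∀ j ∈ T, j = i ∨ j ∈ S) :
    IsPushout (a i ≫ G.h) (f i) (G.map G' h) (G'.b i hiT) := by
  classical
  refine ⟨⟨by simp [G'.w i hiT]⟩, ⟨PushoutCocone.IsColimit.mk _
    (fun s => G'.desc (G.h ≫ s.inl)
      (fun j hj => if e : j = i then eqToHom (congrArg B e) ≫ s.inr
        else G.b j ((hT j hj).resolve_left e) ≫ s.inl) fun j hj => ?_)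
    (fun s => ?_) (fun s => ?_) fun s m hl hr => ?_⟩⟩
  · split_ifs with e
    · subst e
      simpa using s.condition.symm
    · rw [reassoc_of% G.w j]
  · refine G.hom_ext _ _ (by simp) fun j hj => ?_
    have : j ≠ i := fun e => hiS (e ▸ hj)
    simp [this]
  · simp
  · refine G'.hom_ext _ _ ?_ fun j hj => ?_
    · rw [← G.h_map G' h, Category.assoc, hl]
      simp
    · rcases eq_or_ne j i with e | e
      · subst e
        simpa using hr
      · rw [← G.b_map G' h j ((hT j hj).resolve_left e), Category.assoc, hl]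
        simp [e]

/-- Attaching cells along a monotone family of sets. -/
@[reducible] def glueFunctor {K : Type w} [Preorder K] {S : K → Set ι} (hS : Monotone S)
    (P : ∀ k, Glue f a (S k)) : K ⥤ C where
  obj k := (P k).pt
  map {j k} φ := (P j).map (P k) (hS (leOfHom φ))
  map_id j := (P j).hom_ext _ _ (by simp) (by simp)
  map_comp φ ψ := (P _).hom_ext _ _ (by simp) (by simp)

/-- The cocone of a family of sets under a bigger one. -/
def glueCocone {K : Type w} [Preorder K] {S : K → Set ι} (hS : Monotone S)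
    (P : ∀ k, Glue f a (S k)) {T : Set ι} (G : Glue f a T) (hle : ∀ k, S k ⊆ T) :
    Cocone (glueFunctor hS P) where
  pt := G.pt
  ι :=
    { app := fun k => (P k).map G (hle k)
      naturality := fun j k φ => (P j).hom_ext _ _ (by simp [glueFunctor])
        (by simp [glueFunctor]) }

/-- A directed union of sets of cells gives a colimit. -/
theorem isColimit_glueCocone {K : Type w} [LinearOrder K] {S : K → Set ι} (hS : Monotone S)
    (P : ∀ k, Glue f a (S k)) {T : Set ι} (G : Glue f a T) (hle : ∀ k, S k ⊆ T) (k₀ : K)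
    (hcov : ∀ i ∈ T, ∃ k, i ∈ S k) : Nonempty (IsColimit (glueCocone hS P G hle)) := by
  choose k hk using hcov
  have hw : ∀ (s : Cocone (glueFunctor hS P)) (j j' : K),
      (P j).h ≫ s.ι.app j = (P j').h ≫ s.ι.app j' := by
    have h1 : ∀ (s : Cocone (glueFunctor hS P)) (j j' : K), j ≤ j' →
        (P j).h ≫ s.ι.app j = (P j').h ≫ s.ι.app j' := fun s j j' h => by
      rw [← s.w (homOfLE h)]
      exact Glue.h_map_assoc _ _ _ _
    exact fun s j j' => (le_total j j').elim (h1 s j j') fun h => (h1 s j' j h).symm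
  have hb : ∀ (s : Cocone (glueFunctor hS P)) (i : ι) (j j' : K) (hj : i ∈ S j) (hj' : i ∈ S j'),
      (P j).b i hj ≫ s.ι.app j = (P j').b i hj' ≫ s.ι.app j' := by
    have h1 : ∀ (s : Cocone (glueFunctor hS P)) (i : ι) (j j' : K) (hj : i ∈ S j) (hj' : i ∈ S j'),
        j ≤ j' → (P j).b i hj ≫ s.ι.app j = (P j').b i hj' ≫ s.ι.app j' :=
      fun s i j j' hj hj' h => by
        rw [← s.w (homOfLE h)]
        exact Glue.b_map_assoc _ _ _ _ _ _
    exact fun s i j j' hj hj' =>
      (le_total j j').elim (h1 s i j j' hj hj') fun h => (h1 s i j' j hj' hj h).symm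
  refine ⟨
    { desc := fun s => G.desc ((P k₀).h ≫ s.ι.app k₀)
        (fun i hi => (P (k i hi)).b i (hk i hi) ≫ s.ι.app (k i hi)) fun i hi => ?_
      fac := fun s j => ?_
      uniq := fun s q hq => ?_ }⟩
  · refine (Category.assoc _ _ _).symm.trans ((congrArg (· ≫ s.ι.app (k i hi))
      ((P (k i hi)).w i (hk i hi))).trans ((Category.assoc _ _ _).trans ?_))
    exact congrArg (a i ≫ ·) (hw s _ _)
  · refine (P j).hom_ext _ _ ?_ fun i hi => ?_
    · exact (Glue.h_map_assoc _ _ _ _).trans ((G.h_desc _ _ _).trans (hw s k₀ j))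
    · exact (Glue.b_map_assoc _ _ _ _ _ _).trans
        ((G.b_desc _ _ _ i _).trans (hb s i _ j (hk i (hle j hi)) hi))
  · refine G.hom_ext _ _ ?_ fun i hi => ?_
    · exact ((P k₀).h_map_assoc G (hle k₀) q).symm.trans
        ((congrArg ((P k₀).h ≫ ·) (hq k₀)).trans (G.h_desc _ _ _).symm)
    · refine ((P (k i hi)).b_map_assoc G (hle _) i (hk i hi) q).symm.trans
        ((congrArg ((P (k i hi)).b i (hk i hi) ≫ ·) (hq (k i hi))).trans ?_)
      rw [G.b_desc]

variable (f a) in
/-- All cells at once, as a transfinite composition of single cells. -/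
theorem transfiniteCompositions_of_glue [HasCoproducts.{w} C] [HasPushouts C]
    {W : MorphismProperty C} (hf : ∀ i, W (f i)) (G : Glue f a Set.univ) :
    transfiniteCompositions.{w} W.pushouts G.h := by
  classical
  let : LinearOrder ι := linearOrderOfSTO WellOrderingRel
  have : WellFoundedLT ι := ⟨WellOrderingRel.isWellOrder.wf⟩
  let : OrderBot (WithTop ι) := WellFoundedLT.toOrderBot _
  let : SuccOrder (WithTop ι) := SuccOrder.ofLinearWellFoundedLT _
  let S : WithTop ι → Set ι := fun j => {i | (i : WithTop ι) < j}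
  have hS : Monotone S := fun j k hjk i (hi : (i : WithTop ι) < j) => hi.trans_le hjk
  let P := fun j => (nonempty_glue f a (S j)).some
  have hbot : ∀ i, i ∉ S ⊥ := fun i (hi : (i : WithTop ι) < ⊥) => not_lt_bot hi
  let eb : (glueFunctor hS P).obj ⊥ ≅ X :=
    { hom := (P ⊥).desc (𝟙 X) (fun i hi => (hbot i hi).elim) fun i hi => (hbot i hi).elim
      inv := (P ⊥).h
      hom_inv_id := (P ⊥).hom_ext _ _ (by simp [glueFunctor]) fun i hi => (hbot i hi).elim
      inv_hom_id := by simp }
  have hcont : (glueFunctor hS P).IsWellOrderContinuous := ⟨fun m hm =>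
    (isColimit_glueCocone (fun j k h => hS h : Monotone fun k : Set.Iio m => S k.1)
      (fun k => P k.1) (P m) (fun k => hS k.2.le) ⟨⊥, hm.bot_lt⟩ fun i hi =>
        ⟨⟨Order.succ (i : WithTop ι), hm.succ_lt hi⟩,
          Order.lt_succ_of_not_isMax (show (i : WithTop ι) < m from hi).not_isMax⟩)⟩
  refine transfiniteCompositionsOfShape_le_transfiniteCompositions _ (WithTop ι) _ ⟨?_⟩
  exact
    { F := glueFunctor hS P
      isoBot := eb
      isWellOrderContinuous := hcont
      incl := (glueCocone hS P G fun _ => Set.subset_univ _).ι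
      isColimit := (isColimit_glueCocone hS P G (fun _ => Set.subset_univ _) ⊥
        fun i _ => ⟨⊤, WithTop.coe_lt_top i⟩).some
      fac := by simp [eb, glueCocone]
      map_mem := fun j hj => by
        obtain ⟨i, rfl⟩ : ∃ i : ι, (i : WithTop ι) = j :=
          WithTop.ne_top_iff_exists.1 (fun e => hj (e ▸ isMax_top))
        exact pushouts_mk _ (isPushout_insert (P _) (P _) (hS (Order.le_succ _)) i
          (Order.lt_succ_of_not_isMax hj) (fun h => lt_irrefl (i : WithTop ι) h) fun k hk => by
            rcases ((Order.lt_succ_iff_of_not_isMax hj).1 hk).lt_or_eq with h | h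
            · exact Or.inr h
            · exact Or.inl (WithTop.coe_injective h)) (hf i) }

/-- A pushout of a coproduct of maps is a transfinite composition of pushouts of single maps. -/
theorem pushouts_coproducts_le [HasCoproducts.{w} C] [HasPushouts C] (W : MorphismProperty C) :
    (coproducts.{w} W).pushouts ≤ transfiniteCompositions.{w} W.pushouts := by
  rintro X Y p ⟨P, Q, g, t, b, hg, sq⟩
  obtain ⟨κ, hκ⟩ := (coproducts_iff W g).1 hg
  cases hκ with
  | mk X₁ X₂ c₁ c₂ h₁ h₂ φ hφ =>
    refine transfiniteCompositions_of_glue (fun i => φ.app ⟨i⟩) (fun i => c₁.ι.app ⟨i⟩ ≫ t)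
      (fun i => hφ ⟨i⟩)
      { pt := Y
        h := p
        b := fun i _ => c₂.ι.app ⟨i⟩ ≫ b
        w := fun i _ => by
          have := c₁.ι.app ⟨i⟩ ≫= sq.w
          simpa using this.symm
        desc := fun x y e => sq.desc x (h₂.desc (Cocone.mk _ (Discrete.natTrans fun j =>
          y j.as (Set.mem_univ _)))) (h₁.hom_ext fun ⟨i⟩ => by simpa using (e i trivial).symm)
        h_desc := fun x y e => sq.inl_desc _ _ _
        b_desc := fun x y e i hi => by simp
        hom_ext := fun q r hq hr => sq.hom_ext hq (h₂.hom_ext fun ⟨i⟩ => by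
          simpa using hr i (Set.mem_univ _)) }

end

end Vale.Agent.P213.Transfer
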