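import Vale.Agent.P213.Spec
import Vale.Agent.P213.Transfer.Cells

/-!
# P213, transfer: pushouts of coproducts, as stated in the interface
-/

universe u

namespace Vale.Agent.P213

open CategoryTheory CategoryTheory.Limits

theorem coprodCells : Spec.CoprodCells.{u} := fun C _ _ T => by
  have : ∀ J : Type u, HasColimitsOfShape (Discrete J) C := fun J =>
    HasColimitsOfSize.has_colimits_of_shape (Discrete J)
  exact Transfer.pushouts_coproducts_le.{u} T

end Vale.Agent.P213
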