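import Vale.Agent.P213.Transfer.Main
import Vale.Agent.P213.Transfer.CoprodCells
import Vale.Agent.P213.Cells.Generators
import Vale.Agent.P213.SSet.ExWeq.TrivialFibration
import Vale.Agent.P213.SSet.ExWeq.Filtered
import Vale.Agent.P213.SSet.SdNerve
import Vale.Agent.P213.SSet.SpecBasic
import Vale.Agent.P213.SSet.NerveHomotopy
import Vale.Agent.P213.SSet.Chain
import Vale.Agent.P213.Omega.Interval
import Vale.Agent.P213.Omega.Restrict
import Vale.Agent.P213.Cat.Adjoint
import Vale.Agent.P213.Cat.Filtered
import Vale.Agent.P213.Cat.Limits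
import Vale.Agent.P213.Steiner.Atom
import Vale.Agent.P213.Steiner.Simplex

/-!
# P213, transfer: the conjecture from the cylinder and freeness statements
-/

universe u

namespace Vale.Agent.P213

/-- Everything plugged in except the cylinder and the three freeness statements. -/
theorem conjecture_of_cylinder (n : ℕ∞) (hn : 1 ≤ n) (hC : Spec.Cylinder.{u} n)
    (h0 : Spec.FreeZero.{u}) (h1 : Spec.FreeSucc.{u}) (hE : Spec.FreeExt.{u}) :
    Conjecture.{u} n :=
  conjecture_of n (bicomplete n) (nerveAdjoint n)
    (nerveFiltered_of simplexGood atomCell h0 h1 hE n) weqBasic weqHomotopyEquiv weqGluing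
    weqChain weqTransfinite exWeq sdExUnit trivialFibration exFiltered
    (Cells.cells hn interval restrict hC weqBasic weqHomotopyEquiv nerveHomotopy weqPushout
      weqGluing sdBoundary sdHorn)

end Vale.Agent.P213
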