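import Vale.Agent.P213.Transfer.Unit

/-!
# P213, transfer: the conjecture from the interfaces
-/

universe u

namespace Vale.Agent.P213

open CategoryTheory CategoryTheory.Limits MorphismProperty Simplicial Spec

noncomputable section

namespace Transfer

/-- Weak equivalences are preserved by one subdivision. -/
theorem weq_sd (hW : WeqBasic.{u}) (hE : ExWeq.{u}) (hS : SdExUnit.{u}) {K L : SSet.{u}}
    (i : K ⟶ L) (hi : weq i) : weq (SSet.sd.map i) := by
  have := hW.1
  refine (hE _ _ _).1 (weq.of_precomp (SSet.sdExAdjunction.unit.app K) _ (hS K) ?_)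
  have e : i ≫ SSet.sdExAdjunction.unit.app L =
      SSet.sdExAdjunction.unit.app K ≫ SSet.ex.map (SSet.sd.map i) :=
    SSet.sdExAdjunction.unit.naturality i
  rw [← e]
  exact MorphismProperty.comp_mem _ _ _ hi (hS L)

/-- The derived unit of the composite adjunction. -/
theorem weq_trAdj_unit {n : ℕ∞} {c : SSet.{u} ⥤ NCat.{u} n} (adj : c ⊣ nerveN n)
    (hW : WeqBasic.{u}) (hE : ExWeq.{u}) (hS : SdExUnit.{u}) (K : SSet.{u})
    (h : weq (adj.unit.app (SSet.sd.obj (SSet.sd.obj K)))) :
    weq ((trAdj adj).unit.app K) := by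
  have := hW.1
  simp only [Adjunction.comp_unit_app]
  exact MorphismProperty.comp_mem _ _ _
    (MorphismProperty.comp_mem _ _ _ (hS _) ((hE _ _ _).2 (hS _)))
    ((hE _ _ _).2 ((hE _ _ _).2 h))

end Transfer

/-- The conjecture at `n` from the interfaces. -/
theorem conjecture_of (n : ℕ∞) (hB : Bicomplete.{u} n) (hA : NerveAdjoint.{u} n)
    (hN : NerveFiltered.{u} n) (hW : WeqBasic.{u}) (hHE : WeqHomotopyEquiv.{u})
    (hG : WeqGluing.{u}) (hC : WeqChain.{u}) (hT : WeqTransfinite.{u}) (hE : ExWeq.{u})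
    (hS : SdExUnit.{u}) (hF : TrivialFibration.{u}) (hEx : ExFiltered.{u})
    (hCells : Cells.{u} n) : Conjecture.{u} n := by
  have : (nerveN.{u} n).IsRightAdjoint := hA
  obtain ⟨c, ⟨adj⟩⟩ := this.exists_leftAdjoint
  refine ⟨Transfer.exists_model adj hB hN hEx hW hT hE hF hCells, c, adj, fun K L i hi => ?_,
    fun K L i _ hi => ?_, fun K X _ f => ?_⟩
  · intro P Q p hp
    refine ((Transfer.trAdj adj).hasLiftingProperty_iff i p).2 ?_
    have h1 : SSet.modelCategoryQuillen.I.rlp ((Transfer.rightFun n).map p) :=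
      (hF _ _ _).2 ⟨hp.1, (hE _ _ _).2 ((hE _ _ _).2 hp.2)⟩
    rw [← SSet.rlp_monomorphisms] at h1
    exact h1 i (MorphismProperty.monomorphisms.infer_property i)
  · have := hW.1
    have hu : ∀ J : SSet.{u}, weq (adj.unit.app (SSet.sd.obj (SSet.sd.obj J))) :=
      Transfer.weq_unit adj hW hHE hN hG hC hCells
    refine weq.of_precomp (adj.unit.app _) _ (hu K) ?_
    have e : SSet.sd.map (SSet.sd.map i) ≫ adj.unit.app (SSet.sd.obj (SSet.sd.obj L)) =
        adj.unit.app (SSet.sd.obj (SSet.sd.obj K)) ≫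
          (nerveN n).map (c.map (SSet.sd.map (SSet.sd.map i))) :=
      adj.unit.naturality _
    rw [← e]
    exact MorphismProperty.comp_mem _ _ _
      (Transfer.weq_sd hW hE hS _ (Transfer.weq_sd hW hE hS i hi)) (hu L)
  · have := hW.1
    have hu := Transfer.weq_trAdj_unit adj hW hE hS K
      (Transfer.weq_unit adj hW hHE hN hG hC hCells K)
    rw [Adjunction.homEquiv_unit]
    constructor
    · intro hf
      exact weq.comp_mem _ _ hu ((hE _ _ _).2 ((hE _ _ _).2 hf))
    · intro hf
      exact (hE _ _ _).1 ((hE _ _ _).1 (weq.of_precomp _ _ hu hf))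

end

end Vale.Agent.P213
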