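import Vale.Agent.P213.Transfer.Setup
import Vale.Agent.P213.Transfer.CoprodCells

/-!
# P213, transfer: the model structure
-/

universe u

namespace Vale.Agent.P213.Transfer

open CategoryTheory CategoryTheory.Limits HomotopicalAlgebra MorphismProperty Simplicial Spec

noncomputable section

variable {n : ℕ∞}

/-- A filtered-colimit preserving functor preserves colimits of well ordered shapes. -/
theorem preservesColimits_linearOrder {C : Type*} [Category C] {D : Type*} [Category D]
    (G : C ⥤ D) [PreservesFilteredColimitsOfSize.{u, u} G] (J : Type u) [LinearOrder J]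
    [Nonempty J] : PreservesColimitsOfShape J G :=
  PreservesFilteredColimitsOfSize.preserves_filtered_colimits J

theorem preservesWellOrder {C : Type*} [Category C] {D : Type*} [Category D] (G : C ⥤ D)
    [PreservesFilteredColimitsOfSize.{u, u} G] (J : Type u) [LinearOrder J] :
    PreservesWellOrderContinuousOfShape J G :=
  ⟨fun j hj => by
    have : Nonempty (Set.Iio j) :=
      let ⟨k, hk⟩ := not_isMin_iff.1 hj.1
      ⟨⟨k, hk⟩⟩
    exact preservesColimits_linearOrder G (Set.Iio j)⟩

/-- Monic weak equivalences on nerves. -/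
def nerveTrivCof (n : ℕ∞) : MorphismProperty (NCat.{u} n) :=
  (monomorphisms SSet.{u} ⊓ weq.{u}).inverseImage (nerveN n)

theorem transfiniteCompositions_nerveTrivCof_le (hN : NerveFiltered.{u} n)
    (hT : WeqTransfinite.{u}) :
    transfiniteCompositions.{u} (nerveTrivCof.{u} n) ≤ nerveTrivCof n := by
  have : PreservesFilteredColimitsOfSize.{u, u} (nerveN.{u} n) := ⟨fun J _ _ => hN J⟩
  intro X Y f hf
  obtain ⟨J, _, _, _, _, hf⟩ := (transfiniteCompositions_iff _ f).1 hf
  have := preservesColimits_linearOrder (nerveN.{u} n) J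
  have := preservesWellOrder (nerveN.{u} n) J
  have hs : IsStableUnderTransfiniteComposition.{u} (monomorphisms SSet.{u} ⊓ weq.{u}) := hT
  show (monomorphisms SSet.{u} ⊓ weq.{u}) ((nerveN n).map f)
  exact transfiniteCompositionsOfShape_le _ J _ hf.some.map.mem

variable {c : SSet.{u} ⥤ NCat.{u} n} (adj : c ⊣ nerveN n)

include adj in
theorem pushouts_genJ_le (hCells : Cells.{u} n) : (genJ c).pushouts ≤ nerveTrivCof n := by
  rintro X Y f ⟨A, B, p, g, j, hp, sq⟩
  simp only [genJ, iSup_iff] at hp
  obtain ⟨m, ⟨k⟩⟩ := hp
  exact (hCells c adj).2 m k _ _ g j f sq.flip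

include adj in
/-- The left class of the small object argument consists of weak equivalences. -/
theorem llp_rlp_genJ_le (hB : Bicomplete.{u} n) (hN : NerveFiltered.{u} n)
    (hEx : ExFiltered.{u}) (hW : WeqBasic.{u}) (hT : WeqTransfinite.{u})
    (hCells : Cells.{u} n) : (genJ c).rlp.llp ≤ W n := by
  have := hB.2
  have := (hasSmallObjectArgument_gen adj hB hN hEx).2
  have := hW.2
  rw [llp_rlp_of_hasSmallObjectArgument]
  refine le_trans (retracts_monotone (le_trans (transfiniteCompositions_monotone ?_)
    (transfiniteCompositions_nerveTrivCof_le hN hT))) ?_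
  · exact le_trans (coprodCells (NCat.{u} n) (genJ c))
      (le_trans (transfiniteCompositions_monotone (pushouts_genJ_le adj hCells))
        (transfiniteCompositions_nerveTrivCof_le hN hT))
  · have hle : nerveTrivCof n ≤ weq.inverseImage (nerveN n) := fun _ _ _ h => h.2
    exact le_trans (retracts_monotone hle) (retracts_le (weq.inverseImage (nerveN n)))

include adj in
/-- The transferred model structure. -/
theorem exists_model (hB : Bicomplete.{u} n) (hN : NerveFiltered.{u} n) (hEx : ExFiltered.{u})
    (hW : WeqBasic.{u}) (hT : WeqTransfinite.{u}) (hE : ExWeq.{u})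
    (hF : TrivialFibration.{u}) (hCells : Cells.{u} n) :
    ∃ M : ModelCategory (NCat.{u} n),
      M.categoryWithWeakEquivalences.weakEquivalences = W n ∧
      M.categoryWithFibrations.fibrations = F n ∧
      M.categoryWithCofibrations.cofibrations = C n := by
  obtain ⟨hI, hJ⟩ := hasSmallObjectArgument_gen adj hB hN hEx
  have eI := genI_rlp adj hE hF
  have eJ := genJ_rlp adj
  have := hB.1
  have := hB.2
  have := hW.1
  have := hW.2
  let iF : CategoryWithFibrations (NCat.{u} n) := ⟨F n⟩
  let iC : CategoryWithCofibrations (NCat.{u} n) := ⟨C n⟩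
  let iW : CategoryWithWeakEquivalences (NCat.{u} n) := ⟨W n⟩
  have h2 : (W.{u} n).HasTwoOutOfThreeProperty :=
    inferInstanceAs (weq.inverseImage (nerveN n)).HasTwoOutOfThreeProperty
  have hJC : (genJ c).rlp.llp ≤ C n := by
    rw [eJ]
    exact antitone_llp inf_le_left
  have hJW := llp_rlp_genJ_le adj hB hN hEx hW hT hCells
  have hlift : ∀ {A B : NCat.{u} n} (i : A ⟶ B), C n i → W n i → (genJ c).rlp.llp i := by
    intro A B i hiC hiW
    have d := MorphismProperty.factorizationData (genJ c).rlp.llp (genJ c).rlp i
    have hpF : F n d.p := eJ ▸ d.hp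
    have hpW : W n d.p := h2.of_precomp d.i d.p (hJW _ d.hi) (by rw [d.fac]; exact hiW)
    have := hiC d.p ⟨hpF, hpW⟩
    exact MorphismProperty.of_retract (RetractArrow.ofLeftLiftingProperty d.fac) d.hi
  refine ⟨
    { categoryWithFibrations := iF
      categoryWithCofibrations := iC
      categoryWithWeakEquivalences := iW
      cm2 := h2
      cm3a := inferInstanceAs (weq.inverseImage (nerveN n)).IsStableUnderRetracts
      cm3b := by
        show (F n).IsStableUnderRetracts
        rw [← eJ]
        infer_instance
      cm3c := inferInstanceAs (F n ⊓ W n).llp.IsStableUnderRetracts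
      cm4a := fun i p hic hiw hp =>
        (hlift i hic.mem hiw.mem) p (eJ.symm ▸ hp.mem)
      cm4b := fun i p hic hp hpw => hic.mem p ⟨hp.mem, hpw.mem⟩
      cm5a := ⟨fun f => ?_⟩
      cm5b := ⟨fun f => ?_⟩ }, rfl, rfl, rfl⟩
  · have d := MorphismProperty.factorizationData (genJ c).rlp.llp (genJ c).rlp f
    exact ⟨{ Z := d.Z, i := d.i, p := d.p, fac := d.fac, hi := ⟨hJC _ d.hi, hJW _ d.hi⟩
             hp := show F n d.p by rw [← eJ]; exact d.hp }⟩
  · have d := MorphismProperty.factorizationData (genI c).rlp.llp (genI c).rlp f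
    exact ⟨{ Z := d.Z, i := d.i, p := d.p, fac := d.fac
             hi := show (F n ⊓ W n).llp d.i by rw [← eI]; exact d.hi
             hp := show (F n ⊓ W n) d.p by rw [← eI]; exact d.hp }⟩

end

end Vale.Agent.P213.Transfer
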