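import Vale.Agent.P213.Spec

/-!
# P213, transfer: the composite adjunction and its generating families
-/

universe u

namespace Vale.Agent.P213.Transfer

open CategoryTheory CategoryTheory.Limits MorphismProperty Simplicial Spec

noncomputable section

/-- The right adjoint of the transfer. -/
abbrev rightFun (n : ℕ∞) : NCat.{u} n ⥤ SSet.{u} :=
  nerveN n ⋙ (SSet.ex ⋙ SSet.ex)

/-- The left adjoint of the transfer. -/
abbrev leftFun {n : ℕ∞} (c : SSet.{u} ⥤ NCat.{u} n) : SSet.{u} ⥤ NCat.{u} n :=
  (SSet.sd ⋙ SSet.sd) ⋙ c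

/-- The adjunction of the transfer. -/
abbrev trAdj {n : ℕ∞} {c : SSet.{u} ⥤ NCat.{u} n} (adj : c ⊣ nerveN n) :
    leftFun c ⊣ rightFun n :=
  (SSet.sdExAdjunction.comp SSet.sdExAdjunction).comp adj

variable {n : ℕ∞} (c : SSet.{u} ⥤ NCat.{u} n)

/-- The images of the boundary inclusions. -/
def genI : MorphismProperty (NCat.{u} n) :=
  .ofHoms fun m : ℕ => (leftFun c).map (SSet.boundary.{u} m).ι

/-- The images of the horn inclusions. -/
def genJ : MorphismProperty (NCat.{u} n) :=
  ⨆ m : ℕ, .ofHoms fun i : Fin (m + 2) => (leftFun c).map (SSet.horn.{u} (m + 1) i).ι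

variable {c} (adj : c ⊣ nerveN n)

include adj in
theorem genI_rlp_iff {X Y : NCat.{u} n} (f : X ⟶ Y) :
    (genI c).rlp f ↔ SSet.modelCategoryQuillen.I.rlp ((rightFun n).map f) := by
  constructor
  · rintro h _ _ _ ⟨m⟩
    exact ((trAdj adj).hasLiftingProperty_iff _ f).1 (h _ ⟨m⟩)
  · rintro h _ _ _ ⟨m⟩
    exact ((trAdj adj).hasLiftingProperty_iff _ f).2 (h _ ⟨m⟩)

include adj in
theorem genJ_rlp : (genJ c).rlp = F n := by
  ext X Y f
  simp only [genJ, F, SSet.modelCategoryQuillen.J]
  constructor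
  · intro h A B i hi
    simp only [iSup_iff] at hi
    obtain ⟨m, ⟨j⟩⟩ := hi
    exact ((trAdj adj).hasLiftingProperty_iff _ f).1
      (h _ (le_iSup (fun m : ℕ => MorphismProperty.ofHoms fun i : Fin (m + 2) =>
        (leftFun c).map (SSet.horn.{u} (m + 1) i).ι) m _ ⟨j⟩))
  · intro h A B i hi
    simp only [iSup_iff] at hi
    obtain ⟨m, ⟨j⟩⟩ := hi
    exact ((trAdj adj).hasLiftingProperty_iff _ f).2
      (h _ (le_iSup (fun m : ℕ => MorphismProperty.ofHoms fun i : Fin (m + 2) =>
        (SSet.horn.{u} (m + 1) i).ι) m _ ⟨j⟩))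

include adj in
theorem genI_rlp (hE : ExWeq.{u}) (hT : TrivialFibration.{u}) :
    (genI c).rlp = F n ⊓ W n := by
  ext X Y f
  refine (genI_rlp_iff adj f).trans ((hT _ _ _).trans ?_)
  exact and_congr_right fun _ => (hE _ _ _).trans (hE _ _ _)

/-- Filtered colimits are preserved by the right adjoint. -/
theorem preservesFiltered (hN : NerveFiltered.{u} n) (hEx : ExFiltered.{u}) :
    PreservesFilteredColimitsOfSize.{u, u} (rightFun.{u} n) :=
  ⟨fun J _ _ => by
    have := hN J
    have := hEx J
    infer_instance⟩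

include adj in
theorem isFinitelyPresentable_leftObj (hN : NerveFiltered.{u} n) (hEx : ExFiltered.{u})
    (K : SSet.{u}) [IsFinitelyPresentable.{u} K] :
    IsFinitelyPresentable.{u} ((leftFun c).obj K) := by
  have : Fact (Cardinal.aleph0.{u}).IsRegular := Cardinal.fact_isRegular_aleph0
  have : (rightFun.{u} n).IsCardinalAccessible Cardinal.aleph0.{u} :=
    Functor.IsFinitelyAccessible_iff_preservesFilteredColimitsOfSize.2 (preservesFiltered hN hEx)
  exact (trAdj adj).isCardinalPresentable_leftAdjoint_obj Cardinal.aleph0.{u} K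

attribute [local instance] Cardinal.fact_isRegular_aleph0 Cardinal.orderBotAleph0OrdToType

include adj in
/-- The small object argument for the two families. -/
theorem hasSmallObjectArgument_gen (hB : Bicomplete.{u} n) (hN : NerveFiltered.{u} n)
    (hEx : ExFiltered.{u}) :
    HasSmallObjectArgument.{u} (genI c) ∧ HasSmallObjectArgument.{u} (genJ c) := by
  have := hB.2
  have : IsSmall.{u} (genI c) := isSmall_ofHoms ..
  have hs : ∀ m : ℕ, IsSmall.{u} (MorphismProperty.ofHoms fun i : Fin (m + 2) =>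
      (leftFun c).map (SSet.horn.{u} (m + 1) i).ι) := fun m => isSmall_ofHoms ..
  have : IsSmall.{u} (genJ c) := isSmall_iSup ..
  have hp : ∀ (K : SSet.{u}) [IsFinitelyPresentable.{u} K],
      IsFinitelyPresentable.{u} ((leftFun c).obj K) :=
    fun K _ => isFinitelyPresentable_leftObj adj hN hEx K
  refine ⟨⟨.aleph0, inferInstance, inferInstance, { preservesColimit := ?_ }⟩,
    ⟨.aleph0, inferInstance, inferInstance, { preservesColimit := ?_ }⟩⟩
  · intro A B X Y i hi f hf
    have : IsFinitelyPresentable.{u} A := by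
      obtain ⟨m⟩ := hi
      exact hp _
    infer_instance
  · intro A B X Y i hi f hf
    have : IsFinitelyPresentable.{u} A := by
      simp only [genJ, iSup_iff] at hi
      obtain ⟨m, ⟨j⟩⟩ := hi
      exact hp _
    infer_instance

end

end Vale.Agent.P213.Transfer
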