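import Vale.Agent.P213.Transfer.Model

/-!
# P213, transfer: the unit is a weak equivalence on twice subdivided simplicial sets
-/

universe u

namespace Vale.Agent.P213.Transfer

open CategoryTheory CategoryTheory.Limits HomotopicalAlgebra MorphismProperty Simplicial Spec

noncomputable section

/-- Two subdivisions. -/
abbrev sdTwo : SSet.{u} ⥤ SSet.{u} := SSet.sd ⋙ SSet.sd

variable {n : ℕ∞}

/-- The nerve of the free category on two subdivisions. -/
abbrev nerveFree (c : SSet.{u} ⥤ NCat.{u} n) : SSet.{u} ⥤ SSet.{u} :=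
  (sdTwo ⋙ c) ⋙ nerveN n

variable {c : SSet.{u} ⥤ NCat.{u} n} (adj : c ⊣ nerveN n)

/-- The unit on two subdivisions. -/
def unitTwo : sdTwo.{u} ⟶ nerveFree c where
  app K := adj.unit.app (sdTwo.obj K)
  naturality _ _ f := adj.unit.naturality (sdTwo.map f)

/-- Monic in both senses and propagating the unit equivalence. -/
def UnitGood : MorphismProperty SSet.{u} := fun X Y f =>
  Mono (sdTwo.map f) ∧ Mono ((nerveFree c).map f) ∧
    (weq ((unitTwo adj).app X) → weq ((unitTwo adj).app Y))

theorem unitGood_pushouts (hW : WeqBasic.{u}) (hG : WeqGluing.{u}) (hCells : Cells.{u} n) :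
    SSet.modelCategoryQuillen.I.{u}.pushouts ≤ UnitGood adj := by
  have := hW.1
  have : c.IsLeftAdjoint := adj.isLeftAdjoint
  rintro P₀ Q₀ f ⟨A, B, p, g, j, hp, sq⟩
  obtain ⟨m⟩ := hp
  obtain ⟨hmono, huA, huB, hNmono, hpo⟩ := (hCells c adj).1 m
  have sS := sq.flip.map sdTwo
  have sC := sS.map c
  obtain ⟨hNi, hq⟩ := hpo _ _ _ _ _ sC
  have hmonoS : Mono (sdTwo.map f) := by
    have : Mono (sdTwo.map (SSet.boundary.{u} m).ι) := hmono
    exact MorphismProperty.of_isPushout (P := monomorphisms SSet.{u}) sS.flip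
      (monomorphisms.infer_property _)
  refine ⟨hmonoS, hNi, fun hX => ?_⟩
  let a := (nerveFree c).map (SSet.boundary.{u} m).ι
  let b := (nerveFree c).map g
  let y : sdTwo.obj Q₀ ⟶ pushout a b :=
    sS.desc ((unitTwo adj).app _ ≫ pushout.inl a b) ((unitTwo adj).app P₀ ≫ pushout.inr a b) 
      (((unitTwo adj).naturality_assoc _ _).trans
        ((congrArg ((unitTwo adj).app _ ≫ ·) pushout.condition).trans
          ((unitTwo adj).naturality_assoc _ _).symm))
  let q : pushout a b ⟶ (nerveFree c).obj Q₀ :=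
    pushout.desc ((nerveFree c).map j) ((nerveFree c).map f)
      (((nerveN n).map_comp _ _).symm.trans
      ((congrArg (nerveN n).map (sS.map c).w).trans ((nerveN n).map_comp _ _)))
  have hq' : weq q := hq _ _ _ q (IsPushout.of_hasPushout a b) (pushout.inl_desc _ _ _)
    (pushout.inr_desc _ _ _)
  have hy : weq y := hG ((unitTwo adj).app _) ((unitTwo adj).app _) ((unitTwo adj).app P₀) y sS
    (IsPushout.of_hasPushout a b) hmono hNmono ((unitTwo adj).naturality _)
    ((unitTwo adj).naturality g) (sS.inl_desc _ _ _) (sS.inr_desc _ _ _) huA huB hX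
  have e : (unitTwo adj).app Q₀ = y ≫ q := by
    refine sS.hom_ext ?_ ?_
    · rw [← Category.assoc, sS.inl_desc, Category.assoc, pushout.inl_desc]
      exact (unitTwo adj).naturality _
    · rw [← Category.assoc, sS.inr_desc, Category.assoc, pushout.inr_desc]
      exact (unitTwo adj).naturality _
  rw [e]
  exact MorphismProperty.comp_mem _ _ _ hy hq'

theorem weq_unit_iso (hW : WeqBasic.{u}) (hI : ∀ {A B : SSet.{u}} (e : A ⟶ B) [IsIso e], weq e)
    {X Y : SSet.{u}} (e : X ≅ Y) (h : weq ((unitTwo adj).app X)) :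
    weq ((unitTwo adj).app Y) := by
  have := hW.1
  refine weq.of_precomp (sdTwo.map e.hom) _ (hI _) ?_
  rw [(unitTwo adj).naturality e.hom]
  exact MorphismProperty.comp_mem _ _ _ h (hI _)

theorem transfiniteCompositions_unitGood_le (hW : WeqBasic.{u})
    (hI : ∀ {A B : SSet.{u}} (e : A ⟶ B) [IsIso e], weq e) (hN : NerveFiltered.{u} n)
    (hC : WeqChain.{u}) :
    transfiniteCompositions.{u} (UnitGood adj) ≤ UnitGood adj := by
  intro X Y f hf
  obtain ⟨J, _, _, _, _, ⟨h⟩⟩ := (transfiniteCompositions_iff _ f).1 hf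
  have : c.IsLeftAdjoint := adj.isLeftAdjoint
  have : PreservesFilteredColimitsOfSize.{u, u} (nerveN.{u} n) := ⟨fun J _ _ => hN J⟩
  have : PreservesFilteredColimitsOfSize.{u, u} (nerveFree c) := ⟨fun J _ _ => inferInstance⟩
  have : PreservesWellOrderContinuousOfShape J sdTwo.{u} := ⟨fun _ _ => inferInstance⟩
  have : PreservesWellOrderContinuousOfShape J (nerveFree c) := preservesWellOrder _ J
  have : PreservesColimitsOfShape J (nerveFree c) := preservesColimits_linearOrder _ J
  have hleS : UnitGood adj ≤ (monomorphisms SSet.{u}).inverseImage sdTwo := fun _ _ _ hg => hg.1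
  have hleT : UnitGood adj ≤ (monomorphisms SSet.{u}).inverseImage (nerveFree c) :=
    fun _ _ _ hg => hg.2.1
  have monoS : ∀ {i j : J} (φ : i ⟶ j), Mono (sdTwo.map (h.F.map φ)) := fun φ =>
    (h.ofLE hleS).map.mem_map φ
  have monoT : ∀ {i j : J} (φ : i ⟶ j), Mono ((nerveFree c).map (h.F.map φ)) := fun φ =>
    (h.ofLE hleT).map.mem_map φ
  refine ⟨(monomorphisms SSet.{u}).transfiniteCompositionsOfShape_le J _ (h.ofLE hleS).map.mem,
    (monomorphisms SSet.{u}).transfiniteCompositionsOfShape_le J _ (h.ofLE hleT).map.mem,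
    fun hX => ?_⟩
  have hj : ∀ j, weq ((unitTwo adj).app (h.F.obj j)) := by
    intro j
    induction j using SuccOrder.limitRecOn with
    | isMin j hj =>
      obtain rfl := hj.eq_bot
      exact weq_unit_iso adj hW hI h.isoBot.symm hX
    | succ j hj ih => exact (h.map_mem j hj).2.2 ih
    | isSuccLimit j hj ih =>
      let _ : OrderBot (Set.Iio j) := { bot := ⟨⊥, hj.bot_lt⟩, bot_le := fun _ => bot_le }
      let _ : SuccOrder (Set.Iio j) := SuccOrder.ofLinearWellFoundedLT _
      let D := (Set.principalSegIio j).monotone.functor ⋙ h.F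
      have : D.IsWellOrderContinuous :=
        inferInstanceAs ((Set.principalSegIio j : Set.Iio j ≤i J).monotone.functor ⋙
          h.F).IsWellOrderContinuous
      have : PreservesWellOrderContinuousOfShape (Set.Iio j) sdTwo.{u} :=
        ⟨fun _ _ => inferInstance⟩
      have := preservesWellOrder (nerveFree c) (Set.Iio j)
      have := preservesColimits_linearOrder (nerveFree c) (Set.Iio j)
      have hcol := h.F.isColimitOfIsWellOrderContinuous j hj
      exact hC (Set.Iio j) (D ⋙ sdTwo) (D ⋙ nerveFree c)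
        (fun _ _ φ => ⟨monoS _, monoT _⟩) (Functor.whiskerLeft D (unitTwo adj))
        (fun k => ih k.1 k.2) _ _ (isColimitOfPreserves sdTwo hcol)
        (isColimitOfPreserves (nerveFree c) hcol) _ fun k => (unitTwo adj).naturality _
  exact hC J (h.F ⋙ sdTwo) (h.F ⋙ nerveFree c) (fun _ _ φ => ⟨monoS φ, monoT φ⟩)
    (Functor.whiskerLeft h.F (unitTwo adj)) hj _ _ (isColimitOfPreserves sdTwo h.isColimit)
    (isColimitOfPreserves (nerveFree c) h.isColimit) _ fun k => (unitTwo adj).naturality _

/-- No cells. -/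
abbrev emptyCat : OmCat.{u} where
  carrier := PEmpty
  s _ x := x.elim
  t _ x := x.elim
  comp _ x _ := x.elim
  ss _ _ x := x.elim
  st _ _ x := x.elim
  ts _ _ x := x.elim
  tt _ _ x := x.elim
  s_comp _ _ x := x.elim
  t_comp _ _ x := x.elim
  id_comp _ x := x.elim
  comp_id _ x := x.elim
  assoc _ x := x.elim
  interchange _ _ x := x.elim
  bounded x := x.elim

/-- A cell of the oriental. -/
def orientalPoint (a : ℕ) : (simplexADC a).Cell where
  x k _ := if k = 0 then Finsupp.single ⟨{0}, Finset.singleton_nonempty 0⟩ 1 else 0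
  deg_eq k e b hb := by
    split_ifs at hb with hk
    · subst hk
      have : b = ⟨{0}, Finset.singleton_nonempty 0⟩ := by
        by_contra hne
        exact hb (Finsupp.single_eq_of_ne hne)
      subst this
      rfl
    · simp at hb
  aug e := by simp
  boundary k e := by
    rw [if_neg (Nat.succ_ne_zero k), ADC.bd_zero]
    simp
  bounded := ⟨0, fun k e hk => by simp [show k ≠ 0 by omega]⟩

theorem isEmpty_nerve_of_isInitial {X : NCat.{u} n} (hX : IsInitial X)
    (m : SimplexCategoryᵒᵖ) : IsEmpty (((nerveN n).obj X).obj m) := by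
  let E : NCat.{u} n := ⟨emptyCat, fun _ _ x => x.elim⟩
  exact ⟨fun σ => (hX.to E).hom.toFun (σ.toFun (orientalPoint m.unop.len)) |>.elim⟩

include adj in
theorem weq_unit_of_isInitial (hI : ∀ {A B : SSet.{u}} (e : A ⟶ B) [IsIso e], weq e)
    {X : SSet.{u}} (hX : IsInitial X) : weq ((unitTwo adj).app X) := by
  have : c.IsLeftAdjoint := adj.isLeftAdjoint
  have h1 : IsInitial (sdTwo.obj X) := IsInitial.isInitialObj sdTwo X hX
  have he := isEmpty_nerve_of_isInitial (IsInitial.isInitialObj c _ h1)
  let back : (nerveFree c).obj X ⟶ sdTwo.obj X :=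
    { app := fun m => TypeCat.ofHom fun σ => ((he m).false σ).elim
      naturality := fun m m' φ => ConcreteCategory.hom_ext _ _ fun σ => ((he m).false σ).elim }
  have : IsIso ((unitTwo adj).app X) := ⟨back, h1.hom_ext _ _,
    NatTrans.ext (funext fun m => ConcreteCategory.hom_ext _ _ fun σ => ((he m).false σ).elim)⟩
  exact hI _

/-- The unit is a weak equivalence on every twice subdivided simplicial set. -/
theorem weq_unit (hW : WeqBasic.{u}) (hHE : WeqHomotopyEquiv.{u}) (hN : NerveFiltered.{u} n)
    (hG : WeqGluing.{u}) (hC : WeqChain.{u}) (hCells : Cells.{u} n) (K : SSet.{u}) :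
    weq (adj.unit.app (SSet.sd.obj (SSet.sd.obj K))) := by
  have hI : ∀ {A B : SSet.{u}} (e : A ⟶ B) [IsIso e], weq e := fun e _ =>
    hHE _ _ e (inv e) (by rw [IsIso.hom_inv_id]; exact Relation.EqvGen.refl _)
      (by rw [IsIso.inv_hom_id]; exact Relation.EqvGen.refl _)
  have hle := transfiniteCompositions_unitGood_le adj hW hI hN hC
  have hcell : (coproducts.{u} SSet.modelCategoryQuillen.I.{u}).pushouts ≤ UnitGood adj :=
    le_trans (coprodCells SSet.{u} _)
      (le_trans (transfiniteCompositions_monotone (unitGood_pushouts adj hW hG hCells)) hle)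
  have h0 : UnitGood adj (SSet.Subcomplex.ι (⊥ : K.Subcomplex)) :=
    hle _ (transfiniteCompositions_monotone hcell _
      (transfiniteCompositionsOfShape_le_transfiniteCompositions _ _ _
        ⟨((SSet.relativeCellComplex K).transfiniteCompositionOfShape' (fun _ => ⟨_⟩)).ofOrderIso
          (orderIsoShrink.{u} ℕ).symm⟩))
  exact h0.2.2 (weq_unit_of_isInitial adj hI SSet.Subcomplex.isInitialBot)

end

end Vale.Agent.P213.Transfer
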